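import Mathlib

/-! Block ALG-POS of the weak Blaschke theorem (`l = 3`): positivity of the
coefficients of the total Chern class of the pencil bundle on the line `y = 0`
when `c^2 >= 9`. -/

namespace Vale.Agent.P231.H29

/-- Case `P = 0`, all small values. -/
theorem caseA (k j : ℝ) (h : (k = 1 ∧ (j = 2 ∨ j = 3)) ∨
      (k = 2 ∧ (j = 2 ∨ j = 3 ∨ j = 4 ∨ j = 5)) ∨ (3 ≤ k ∧ 2 ≤ j ∧ j ≤ k + 4)) :
    (j - 1) * ((9/5 * k) * ((j - 2) * (8 * (k + 1) + 2/9 * (k + 2)) -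
      18/5 * k * (3 * j - k - 4))) ≤ (9/5 * k) ^ 4 := by
  rcases h with ⟨rfl, rfl | rfl⟩ | ⟨rfl, rfl | rfl | rfl | rfl⟩ | ⟨h3, hj2, hj⟩
  iterate 6 norm_num
  obtain ⟨m, rfl⟩ : ∃ m, k = 3 + m := ⟨k - 3, by ring⟩
  obtain ⟨s, rfl⟩ : ∃ s, j = 2 + s := ⟨j - 2, by ring⟩
  have hm : 0 ≤ m := by linarith
  have hs : 0 ≤ s := by linarith
  have hsm : 0 ≤ m + 5 - s := by linarith
  have key : (2 + s - 1) * (((2 + s) - 2) * (8 * ((3 + m) + 1) + 2/9 * ((3 + m) + 2)) -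
      18/5 * (3 + m) * (3 * (2 + s) - (3 + m) - 4)) ≤ (5832/1000) * (3 + m) ^ 3 := by
    nlinarith [mul_nonneg hm hs, mul_nonneg hm hm, mul_nonneg hs hs, mul_nonneg hsm hm,
      mul_nonneg hsm hs, mul_nonneg (mul_nonneg hm hm) hsm, mul_nonneg (mul_nonneg hm hm) hm,
      mul_nonneg (mul_nonneg hm hs) hs, mul_nonneg (mul_nonneg hm hs) hsm]
  have h0 : 0 ≤ 9/5 * (3 + m) := by linarith
  calc _ = (9/5 * (3 + m)) * ((2 + s - 1) * (((2 + s) - 2) * (8 * ((3 + m) + 1) + 2/9 * ((3 + m) + 2)) -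
      18/5 * (3 + m) * (3 * (2 + s) - (3 + m) - 4))) := by ring
    _ ≤ (9/5 * (3 + m)) * ((5832/1000) * (3 + m) ^ 3) := mul_le_mul_of_nonneg_left key h0
    _ = _ := by ring

/-- Case `P = j - k - 4 > 0`. -/
theorem caseB (k j : ℝ) (h1 : k + 4 ≤ j) (h2 : j ≤ 2 * k + 1) :
    (j - 1) * ((9/5 * k) * ((j - 2) * (8 * (k + 1) + 2/9 * (k + 2)) -
      18/5 * k * (3 * j - k - 4)) + 8/9 * (j - k - 4) * ((j - 2) * (j - 3))) ≤ (9/5 * k) ^ 4 := by
  obtain ⟨p, rfl⟩ : ∃ p, j = k + 4 + p := ⟨j - k - 4, by ring⟩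
  obtain ⟨r, rfl⟩ : ∃ r, k = p + 3 + r := ⟨k - p - 3, by ring⟩
  have hp : 0 ≤ p := by linarith
  have hr : 0 ≤ r := by linarith
  rw [← sub_nonneg]
  ring_nf
  positivity

/-- The elementary inequality behind the induction step. -/
theorem key_ineq (k j a P : ℝ) (hk : 1 ≤ k) (ha0 : 0 < a) (ha : a ≤ 1 / 9)
    (h : (P = 0 ∧ ((k = 1 ∧ (j = 2 ∨ j = 3)) ∨
      (k = 2 ∧ (j = 2 ∨ j = 3 ∨ j = 4 ∨ j = 5)) ∨ (3 ≤ k ∧ 2 ≤ j ∧ j ≤ k + 4))) ∨
      (P = j - k - 4 ∧ k + 4 ≤ j ∧ j ≤ 2 * k + 1)) :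
    (j - 1) * ((j - 2) * (9/5 * k) * (8 * a * (k + 1) + 2 * a ^ 2 * (k + 2)) +
      8 * a ^ 2 * ((j - 2) * (j - 3)) * P -
        2 * a * (3 * j - k - 4) * (9/5 * k) ^ 2) ≤ 1/5 * k * (9/5 * k) ^ 3 := by
  have hj : 2 ≤ j := by
    rcases h with ⟨-, ⟨-, h | h⟩ | ⟨-, h | h | h | h⟩ | ⟨-, h, -⟩⟩ | ⟨-, h, -⟩ <;> linarith
  have hPj : 0 ≤ P * (j - 3) := by
    rcases h with ⟨rfl, -⟩ | ⟨rfl, h1, h2⟩
    · simp
    · exact mul_nonneg (by linarith) (by linarith)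
  set X := (9/5 * k) * (j - 2) * (8 * (k + 1)) - 2 * (3 * j - k - 4) * (9/5 * k) ^ 2 with hX
  set Y := (9/5 * k) * (j - 2) * (2 * (k + 2)) + 8 * (j - 2) * (P * (j - 3)) with hY
  have hY0 : 0 ≤ Y := by
    have h1 : 0 ≤ (9/5 * k) * (j - 2) * (2 * (k + 2)) :=
      mul_nonneg (mul_nonneg (by linarith) (by linarith)) (by linarith)
    have h2 : 0 ≤ 8 * (j - 2) * (P * (j - 3)) := mul_nonneg (by linarith) hPj
    linarith
  have hmain : (j - 1) * (X + Y / 9) ≤ (9/5 * k) ^ 4 := by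
    rcases h with ⟨rfl, h⟩ | ⟨rfl, h1, h2⟩
    · have := caseA k j h
      calc _ = _ := by rw [hX, hY]; ring
        _ ≤ _ := this
    · have := caseB k j h1 h2
      calc _ = _ := by rw [hX, hY]; ring
        _ ≤ _ := this
  have hrw : ((j - 2) * (9/5 * k) * (8 * a * (k + 1) + 2 * a ^ 2 * (k + 2)) +
      8 * a ^ 2 * ((j - 2) * (j - 3)) * P -
        2 * a * (3 * j - k - 4) * (9/5 * k) ^ 2) = a * (X + a * Y) := by
    rw [hX, hY]; ring
  rw [hrw]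
  have hR : (0:ℝ) ≤ 1/5 * k * (9/5 * k) ^ 3 := by positivity
  rcases le_or_gt (X + a * Y) 0 with hn | hp
  · have : (j - 1) * (a * (X + a * Y)) ≤ 0 :=
      mul_nonpos_of_nonneg_of_nonpos (by linarith) (mul_nonpos_of_nonneg_of_nonpos ha0.le hn)
    linarith
  · have h1 : X + a * Y ≤ X + Y / 9 := by nlinarith
    have h2 : a * (X + a * Y) ≤ 1/9 * (X + Y / 9) := by
      calc a * (X + a * Y) ≤ 1/9 * (X + a * Y) := mul_le_mul_of_nonneg_right ha hp.le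
        _ ≤ 1/9 * (X + Y / 9) := by linarith
    calc (j - 1) * (a * (X + a * Y)) ≤ (j - 1) * (1/9 * (X + Y / 9)) :=
          mul_le_mul_of_nonneg_left h2 (by linarith)
      _ = 1/9 * ((j - 1) * (X + Y / 9)) := by ring
      _ ≤ 1/9 * (9/5 * k) ^ 4 := by linarith
      _ = _ := by ring

/-- One induction step, in abstract form. -/
theorem step (k j a P q1 q2 q3 q4 : ℝ) (hk : 1 ≤ k) (ha0 : 0 < a) (ha : a ≤ 1 / 9)
    (h : (P = 0 ∧ ((k = 1 ∧ (j = 2 ∨ j = 3)) ∨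
      (k = 2 ∧ (j = 2 ∨ j = 3 ∨ j = 4 ∨ j = 5)) ∨ (3 ≤ k ∧ 2 ≤ j ∧ j ≤ k + 4))) ∨
      (P = j - k - 4 ∧ k + 4 ≤ j ∧ j ≤ 2 * k + 1))
    (hq1 : 0 ≤ q1) (hq2 : 0 ≤ q2)
    (h2 : (9/5 * k) * q2 ≤ (j - 1) * q1) (h3 : (9/5 * k) * q3 ≤ (j - 2) * q2)
    (h4 : P = 0 ∨ (9/5 * k) * q4 ≤ (j - 3) * q3) :
    0 ≤ 1/5 * k * q1 + 2 * a * (3 * j - k - 4) * q2
      - 2 * a * (4 * (k + 1) + (k + 2) * a) * q3 - 8 * a ^ 2 * P * q4 := by
  have hj : 2 ≤ j := by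
    rcases h with ⟨-, ⟨-, h | h⟩ | ⟨-, h | h | h | h⟩ | ⟨-, h, -⟩⟩ | ⟨-, h, -⟩ <;> linarith
  have hkey := key_ineq k j a P hk ha0 ha h
  set L := 9/5 * k with hL
  have hL0 : 0 < L := by rw [hL]; linarith
  set W := (j - 2) * L * (8 * a * (k + 1) + 2 * a ^ 2 * (k + 2)) +
      8 * a ^ 2 * ((j - 2) * (j - 3)) * P - 2 * a * (3 * j - k - 4) * L ^ 2 with hW
  -- bound of the q4 term
  have hP0 : 0 ≤ P := by
    rcases h with ⟨rfl, -⟩ | ⟨rfl, h1, -⟩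
    · exact le_rfl
    · linarith
  have hq4 : P * (L ^ 2 * q4) ≤ P * ((j - 3) * ((j - 2) * q2)) := by
    rcases h with ⟨rfl, -⟩ | ⟨hP, h1, h5⟩
    · simp
    · rcases h4 with h4 | h4
      · rw [h4]; simp
      · apply mul_le_mul_of_nonneg_left _ hP0
        calc L ^ 2 * q4 = L * (L * q4) := by ring
          _ ≤ L * ((j - 3) * q3) := mul_le_mul_of_nonneg_left h4 hL0.le
          _ = (j - 3) * (L * q3) := by ring
          _ ≤ (j - 3) * ((j - 2) * q2) := mul_le_mul_of_nonneg_left h3 (by linarith)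
  have hA : 0 ≤ 2 * a * (4 * (k + 1) + (k + 2) * a) := by positivity
  have hq3 : 2 * a * (4 * (k + 1) + (k + 2) * a) * (L * q3) ≤
      2 * a * (4 * (k + 1) + (k + 2) * a) * ((j - 2) * q2) := mul_le_mul_of_nonneg_left h3 hA
  -- reduce to q1, q2
  have hmul : L ^ 2 * (1/5 * k * q1 + 2 * a * (3 * j - k - 4) * q2
      - 2 * a * (4 * (k + 1) + (k + 2) * a) * q3 - 8 * a ^ 2 * P * q4) ≥
      1/5 * k * L ^ 2 * q1 - W * q2 := by
    have e1 : L * (2 * a * (4 * (k + 1) + (k + 2) * a) * (L * q3)) ≤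
        L * (2 * a * (4 * (k + 1) + (k + 2) * a) * ((j - 2) * q2)) :=
      mul_le_mul_of_nonneg_left hq3 hL0.le
    have e2 : 8 * a ^ 2 * (P * (L ^ 2 * q4)) ≤ 8 * a ^ 2 * (P * ((j - 3) * ((j - 2) * q2))) :=
      mul_le_mul_of_nonneg_left hq4 (by positivity)
    have e3 : W * q2 = L * (2 * a * (4 * (k + 1) + (k + 2) * a) * ((j - 2) * q2)) +
        8 * a ^ 2 * (P * ((j - 3) * ((j - 2) * q2))) - 2 * a * (3 * j - k - 4) * L ^ 2 * q2 := by
      rw [hW]; ring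
    rw [e3]
    nlinarith [e1, e2]
  have hfin : 0 ≤ 1/5 * k * L ^ 2 * q1 - W * q2 := by
    rcases le_or_gt W 0 with hn | hp
    · have h1 : W * q2 ≤ 0 := mul_nonpos_of_nonpos_of_nonneg hn hq2
      have h2 : 0 ≤ 1/5 * k * L ^ 2 * q1 := by positivity
      linarith
    · have h1 : L * (W * q2) ≤ (1/5 * k * L ^ 3) * q1 := by
        calc L * (W * q2) = W * (L * q2) := by ring
          _ ≤ W * ((j - 1) * q1) := mul_le_mul_of_nonneg_left h2 hp.le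
          _ = ((j - 1) * W) * q1 := by ring
          _ ≤ (1/5 * k * L ^ 3) * q1 := mul_le_mul_of_nonneg_right hkey hq1
      have h5 : 0 ≤ L * (1/5 * k * L ^ 2 * q1 - W * q2) := by nlinarith [h1]
      exact nonneg_of_mul_nonneg_right h5 hL0
  have : 0 ≤ L ^ 2 * (1/5 * k * q1 + 2 * a * (3 * j - k - 4) * q2
      - 2 * a * (4 * (k + 1) + (k + 2) * a) * q3 - 8 * a ^ 2 * P * q4) := by linarith
  exact nonneg_of_mul_nonneg_right this (by positivity)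


/-- Nonnegativity of the two last terms of the recurrence. -/
theorem tail_nonneg (k j a q5 q6 : ℝ) (hk : 1 ≤ k) (ha0 : 0 < a) (ha : a ≤ 1 / 9)
    (hj2 : j ≤ 2 * k + 1) (hq5 : 0 ≤ q5) (hq6 : 0 ≤ q6)
    (h6 : q6 = 0 ∨ (6 ≤ j ∧ (9/5 * k) * q6 ≤ (j - 5) * q5)) :
    0 ≤ 4 * a ^ 3 * (2 * k + 3) * q5 - 4 * a ^ 4 * (2 * k + 8 - j) * q6 := by
  rcases h6 with h6 | ⟨hj, h6⟩
  · rw [h6]
    have : 0 ≤ 4 * a ^ 3 * (2 * k + 3) * q5 := by positivity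
    linarith
  · have hL0 : 0 < 9/5 * k := by linarith
    have h1 : a * q6 ≤ q5 := by
      have h2 : (9/5 * k) * (a * q6) ≤ (9/5 * k) * q5 := by
        calc (9/5 * k) * (a * q6) = a * ((9/5 * k) * q6) := by ring
          _ ≤ a * ((j - 5) * q5) := mul_le_mul_of_nonneg_left h6 ha0.le
          _ = (a * (j - 5)) * q5 := by ring
          _ ≤ (9/5 * k) * q5 := by
            apply mul_le_mul_of_nonneg_right _ hq5
            nlinarith
      exact le_of_mul_le_mul_left h2 hL0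
    have h3 : (2 * k + 8 - j) * (a * q6) ≤ (2 * k + 3) * q5 := by
      calc (2 * k + 8 - j) * (a * q6) ≤ (2 * k + 3) * (a * q6) :=
            mul_le_mul_of_nonneg_right (by linarith) (by positivity)
        _ ≤ (2 * k + 3) * q5 := mul_le_mul_of_nonneg_left h1 (by linarith)
    have h4 : 4 * a ^ 3 * ((2 * k + 8 - j) * (a * q6)) ≤ 4 * a ^ 3 * ((2 * k + 3) * q5) :=
      mul_le_mul_of_nonneg_left h3 (by positivity)
    nlinarith [h4]

/-- Note 4914: positivity of all the coefficients up to `2n-1`. -/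
theorem pos_of_rec (n : ℕ) (hn : 2 ≤ n) (a : ℝ) (ha0 : 0 < a) (ha : a ≤ 1 / 9) (Q : ℤ → ℝ)
    (hneg : ∀ i < 0, Q i = 0) (h0 : Q 0 = 1)
    (hrec : ∀ j : ℤ, 1 ≤ j → j ≤ 2 * n - 1 → (j : ℝ) * Q j =
      2 * ((n : ℝ) - 1) * Q (j - 1) + 2 * a * (3 * j - n - 3) * Q (j - 2)
        - 2 * a * (4 * n + (n + 1) * a) * Q (j - 3)
        + (8 * a ^ 2 * (n + 3 - j) + a ^ 3 * (2 * n + 6 - j)) * Q (j - 4)
        + 4 * a ^ 3 * (2 * n + 1) * Q (j - 5) - 4 * a ^ 4 * (2 * n + 6 - j) * Q (j - 6)) :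
    ∀ j : ℕ, j ≤ 2 * n - 1 → 0 < Q j ∧ (1 ≤ j →
      (9/5 * ((n : ℝ) - 1)) * Q ((j : ℤ) - 1) ≤ (j : ℝ) * Q j) := by
  have hnr : (2 : ℝ) ≤ n := by exact_mod_cast hn
  intro j
  induction j using Nat.strong_induction_on with
  | _ j ih =>
  intro hj
  rcases Nat.eq_zero_or_pos j with rfl | hj1
  · refine ⟨by simp [h0], fun h => absurd h (by norm_num)⟩
  -- nonnegativity of all earlier terms
  have hnn : ∀ i : ℤ, i < j → 0 ≤ Q i := by
    intro i hi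
    rcases lt_or_ge i 0 with h | h
    · rw [hneg i h]
    · obtain ⟨m, rfl⟩ := Int.eq_ofNat_of_zero_le h
      exact (ih m (by exact_mod_cast hi) (by omega)).1.le
  have hih : ∀ i : ℤ, 1 ≤ i → i < j → (9/5 * ((n : ℝ) - 1)) * Q (i - 1) ≤ (i : ℝ) * Q i := by
    intro i hi1 hi
    obtain ⟨m, rfl⟩ := Int.eq_ofNat_of_zero_le (by omega : (0:ℤ) ≤ i)
    have := (ih m (by exact_mod_cast hi) (by omega)).2 (by exact_mod_cast hi1)
    simpa using this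
  have hR := hrec j (by exact_mod_cast hj1) (by omega)
  have hjr : (j : ℝ) ≤ 2 * n - 1 := by
    have : (j : ℤ) ≤ 2 * n - 1 := by omega
    exact_mod_cast this
  have hmain : (9/5 * ((n : ℝ) - 1)) * Q ((j : ℤ) - 1) ≤ (j : ℝ) * Q j ∧ 0 < Q ((j : ℤ) - 1) := by
    have hq1 : 0 < Q ((j : ℤ) - 1) := by
      obtain ⟨m, rfl⟩ : ∃ m, j = m + 1 := ⟨j - 1, by omega⟩
      have := (ih m (by omega) (by omega)).1
      simpa using this
    refine ⟨?_, hq1⟩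
    rcases Nat.lt_or_ge j 2 with hlt | hj2
    · -- `j = 1`
      have : j = 1 := by omega
      subst this
      have e : ∀ i : ℤ, i < 0 → Q i = 0 := hneg
      simp only [Nat.cast_one] at hR ⊢
      rw [e (1 - 2) (by norm_num), e (1 - 3) (by norm_num), e (1 - 4) (by norm_num),
        e (1 - 5) (by norm_num), e (1 - 6) (by norm_num)] at hR
      simp only [sub_self, h0] at hR ⊢
      push_cast at hR
      linarith
    · have hj2' : (2 : ℝ) ≤ j := by exact_mod_cast hj2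
      set P : ℝ := if (j : ℤ) ≤ n + 3 then 0 else (j : ℝ) - ((n : ℝ) - 1) - 4 with hP
      have hcases : (P = 0 ∧ (((n : ℝ) - 1 = 1 ∧ ((j : ℝ) = 2 ∨ (j : ℝ) = 3)) ∨
          ((n : ℝ) - 1 = 2 ∧ ((j : ℝ) = 2 ∨ (j : ℝ) = 3 ∨ (j : ℝ) = 4 ∨ (j : ℝ) = 5)) ∨
          (3 ≤ (n : ℝ) - 1 ∧ 2 ≤ (j : ℝ) ∧ (j : ℝ) ≤ ((n : ℝ) - 1) + 4))) ∨
          (P = (j : ℝ) - ((n : ℝ) - 1) - 4 ∧ ((n : ℝ) - 1) + 4 ≤ j ∧
            (j : ℝ) ≤ 2 * ((n : ℝ) - 1) + 1) := by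
        by_cases hc : (j : ℤ) ≤ n + 3
        · left
          have hPe : P = 0 := by rw [hP]; simp [hc]
          refine ⟨hPe, ?_⟩
          rcases (by omega : n = 2 ∨ n = 3 ∨ 4 ≤ n) with h | h | h
          · left
            subst h
            refine ⟨by norm_num, ?_⟩
            rcases (by omega : j = 2 ∨ j = 3) with h | h <;> subst h <;> norm_num
          · right; left
            subst h
            refine ⟨by norm_num, ?_⟩
            rcases (by omega : j = 2 ∨ j = 3 ∨ j = 4 ∨ j = 5) with h | h | h | h <;>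
              subst h <;> norm_num
          · right; right
            have h4 : (4 : ℝ) ≤ n := by exact_mod_cast h
            have h5 : (j : ℝ) ≤ n + 3 := by exact_mod_cast hc
            exact ⟨by linarith, hj2', by linarith⟩
        · right
          have hPe : P = (j : ℝ) - ((n : ℝ) - 1) - 4 := by rw [hP]; simp [hc]
          have h5 : (n : ℝ) + 3 ≤ j := by
            have : (n : ℤ) + 3 ≤ j := by omega
            exact_mod_cast this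
          exact ⟨hPe, by linarith, by linarith⟩
      have h2 := hih ((j : ℤ) - 1) (by omega) (by omega)
      have h3 : (9/5 * ((n : ℝ) - 1)) * Q ((j : ℤ) - 3) ≤ ((j : ℝ) - 2) * Q ((j : ℤ) - 2) := by
        rcases (by omega : j = 2 ∨ 3 ≤ j) with h | h
        · subst h
          rw [hneg _ (by norm_num)]; norm_num
        · have := hih ((j : ℤ) - 2) (by omega) (by omega)
          push_cast at this
          convert this using 3
          ring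
      have h4 : P = 0 ∨ (9/5 * ((n : ℝ) - 1)) * Q ((j : ℤ) - 4) ≤ ((j : ℝ) - 3) * Q ((j : ℤ) - 3) := by
        by_cases hc : (j : ℤ) ≤ n + 3
        · left; rw [hP]; simp [hc]
        · right
          have := hih ((j : ℤ) - 3) (by omega) (by omega)
          push_cast at this
          convert this using 3
          ring
      have h6 : Q ((j : ℤ) - 6) = 0 ∨ (6 ≤ (j : ℝ) ∧
          (9/5 * ((n : ℝ) - 1)) * Q ((j : ℤ) - 6) ≤ ((j : ℝ) - 5) * Q ((j : ℤ) - 5)) := by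
        rcases Nat.lt_or_ge j 6 with h | h
        · left; exact hneg _ (by omega)
        · right
          refine ⟨by exact_mod_cast h, ?_⟩
          have := hih ((j : ℤ) - 5) (by omega) (by omega)
          push_cast at this
          convert this using 3
          ring
      have h2' : (9/5 * ((n : ℝ) - 1)) * Q ((j : ℤ) - 2) ≤ ((j : ℝ) - 1) * Q ((j : ℤ) - 1) := by
        push_cast at h2
        convert h2 using 3
        ring
      have hs := step ((n : ℝ) - 1) j a P (Q ((j : ℤ) - 1)) (Q ((j : ℤ) - 2)) (Q ((j : ℤ) - 3))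
        (Q ((j : ℤ) - 4)) (by linarith) ha0 ha hcases hq1.le (hnn _ (by omega)) h2' h3 h4
      have ht := tail_nonneg ((n : ℝ) - 1) j a (Q ((j : ℤ) - 5)) (Q ((j : ℤ) - 6)) (by linarith)
        ha0 ha (by linarith) (hnn _ (by omega)) (hnn _ (by omega)) h6
      have hq4 : 0 ≤ Q ((j : ℤ) - 4) := hnn _ (by omega)
      have hP4 : -(8 * a ^ 2 * P * Q ((j : ℤ) - 4)) ≤
          (8 * a ^ 2 * (n + 3 - j) + a ^ 3 * (2 * n + 6 - j)) * Q ((j : ℤ) - 4) := by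
        have h7 : -(8 * a ^ 2 * P) ≤ 8 * a ^ 2 * (n + 3 - j) + a ^ 3 * (2 * n + 6 - j) := by
          have h8 : 0 ≤ a ^ 3 * (2 * n + 6 - j) := mul_nonneg (by positivity) (by linarith)
          by_cases hc : (j : ℤ) ≤ n + 3
          · have hPe : P = 0 := by rw [hP]; simp [hc]
            have h5 : (j : ℝ) ≤ n + 3 := by exact_mod_cast hc
            have h9 : 0 ≤ 8 * a ^ 2 * ((n : ℝ) + 3 - j) := mul_nonneg (by positivity) (by linarith)
            rw [hPe]; linarith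
          · have hPe : P = (j : ℝ) - ((n : ℝ) - 1) - 4 := by rw [hP]; simp [hc]
            rw [hPe]
            have : -(8 * a ^ 2 * ((j : ℝ) - ((n : ℝ) - 1) - 4)) = 8 * a ^ 2 * (n + 3 - j) := by ring
            rw [this]; linarith
        have := mul_le_mul_of_nonneg_right h7 hq4
        linarith
      push_cast at hR
      rw [hR]
      nlinarith [hs, ht, hP4]
  refine ⟨?_, fun _ => hmain.1⟩
  have hjpos : (0 : ℝ) < j := by exact_mod_cast hj1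
  have h1 : 0 < (j : ℝ) * Q j :=
    lt_of_lt_of_le (mul_pos (by linarith) hmain.2) hmain.1
  exact (mul_pos_iff_of_pos_left hjpos).1 h1

/-- The coefficient of index `2n-1` is positive. -/
theorem last_pos (n : ℕ) (hn : 2 ≤ n) (a : ℝ) (ha0 : 0 < a) (ha : a ≤ 1 / 9) (Q : ℤ → ℝ)
    (hneg : ∀ i < 0, Q i = 0) (h0 : Q 0 = 1)
    (hrec : ∀ j : ℤ, 1 ≤ j → j ≤ 2 * n - 1 → (j : ℝ) * Q j =
      2 * ((n : ℝ) - 1) * Q (j - 1) + 2 * a * (3 * j - n - 3) * Q (j - 2)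
        - 2 * a * (4 * n + (n + 1) * a) * Q (j - 3)
        + (8 * a ^ 2 * (n + 3 - j) + a ^ 3 * (2 * n + 6 - j)) * Q (j - 4)
        + 4 * a ^ 3 * (2 * n + 1) * Q (j - 5) - 4 * a ^ 4 * (2 * n + 6 - j) * Q (j - 6)) :
    0 < Q (2 * n - 1) := by
  have := (pos_of_rec n hn a ha0 ha Q hneg h0 hrec (2 * n - 1) le_rfl).1
  have e : ((2 * n - 1 : ℕ) : ℤ) = 2 * n - 1 := by omega
  rwa [e] at this

/-- Explicit lower bound for all coefficients. -/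
theorem lower_of_rec (n : ℕ) (hn : 2 ≤ n) (a : ℝ) (ha0 : 0 < a) (ha : a ≤ 1 / 9) (Q : ℤ → ℝ)
    (hneg : ∀ i < 0, Q i = 0) (h0 : Q 0 = 1)
    (hrec : ∀ j : ℤ, 1 ≤ j → j ≤ 2 * n - 1 → (j : ℝ) * Q j =
      2 * ((n : ℝ) - 1) * Q (j - 1) + 2 * a * (3 * j - n - 3) * Q (j - 2)
        - 2 * a * (4 * n + (n + 1) * a) * Q (j - 3)
        + (8 * a ^ 2 * (n + 3 - j) + a ^ 3 * (2 * n + 6 - j)) * Q (j - 4)
        + 4 * a ^ 3 * (2 * n + 1) * Q (j - 5) - 4 * a ^ 4 * (2 * n + 6 - j) * Q (j - 6)) :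
    ∀ j : ℕ, j ≤ 2 * n - 1 → (9/5 * ((n : ℝ) - 1)) ^ j ≤ (j.factorial : ℝ) * Q j := by
  have hnr : (2 : ℝ) ≤ n := by exact_mod_cast hn
  intro j
  induction j with
  | zero => intro _; simp [h0]
  | succ j ih =>
    intro hj
    have h1 := ih (by omega)
    have h2 := (pos_of_rec n hn a ha0 ha Q hneg h0 hrec (j + 1) hj).2 (by omega)
    have e : (((j + 1 : ℕ) : ℤ) - 1) = j := by push_cast; ring
    rw [e] at h2
    have hL : 0 ≤ 9/5 * ((n : ℝ) - 1) := by linarith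
    calc (9/5 * ((n : ℝ) - 1)) ^ (j + 1) = (9/5 * ((n : ℝ) - 1)) * (9/5 * ((n : ℝ) - 1)) ^ j := by
          ring
      _ ≤ (9/5 * ((n : ℝ) - 1)) * ((j.factorial : ℝ) * Q j) := mul_le_mul_of_nonneg_left h1 hL
      _ = (j.factorial : ℝ) * ((9/5 * ((n : ℝ) - 1)) * Q j) := by ring
      _ ≤ (j.factorial : ℝ) * (((j + 1 : ℕ) : ℝ) * Q ((j + 1 : ℕ) : ℤ)) :=
          mul_le_mul_of_nonneg_left h2 (by positivity)
      _ = (((j + 1).factorial : ℕ) : ℝ) * Q ((j + 1 : ℕ) : ℤ) := by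
          rw [Nat.factorial_succ]; push_cast; ring

/-- `n (n+1) / 2 < 21 ^ (n-1)`. -/
theorem tri_lt (n : ℕ) (hn : 2 ≤ n) : ((n : ℝ) * (n + 1) / 2) < 21 ^ (n - 1) := by
  obtain ⟨m, rfl⟩ : ∃ m, n = m + 2 := ⟨n - 2, by omega⟩
  have : m + 2 - 1 = m + 1 := by omega
  rw [this]
  induction m with
  | zero => norm_num
  | succ m ih =>
    have ih' := ih (by omega) (by omega)
    have h1 : ((m + 1 + 2 : ℕ) : ℝ) * ((m + 1 + 2 : ℕ) + 1) / 2 ≤
        21 * (((m + 2 : ℕ) : ℝ) * ((m + 2 : ℕ) + 1) / 2) := by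
      push_cast
      have : (0 : ℝ) ≤ m := Nat.cast_nonneg m
      nlinarith
    calc _ ≤ 21 * (((m + 2 : ℕ) : ℝ) * ((m + 2 : ℕ) + 1) / 2) := h1
      _ < 21 * 21 ^ (m + 1) := by linarith
      _ = 21 ^ (m + 1 + 1) := by ring

/-- Unnormalised form (notes 4531, 5427 (B)): `P_j = [w^j] (C_0^{n+1} / C_x^2)`, `C = c^2`. -/
theorem main_c (n : ℕ) (hn : 2 ≤ n) (c : ℝ) (hc : 3 ≤ |c|) (P : ℤ → ℝ)
    (hneg : ∀ i < 0, P i = 0) (h0 : P 0 = 1)
    (hrec : ∀ j : ℤ, 1 ≤ j → j ≤ 2 * n - 1 → (j : ℝ) * P j =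
      2 * ((n : ℝ) - 1) * c ^ 2 * P (j - 1) + 2 * c ^ 2 * (3 * j - n - 3) * P (j - 2)
        - (8 * n * c ^ 4 + 2 * (n + 1) * c ^ 2) * P (j - 3)
        + (8 * c ^ 4 * (n + 3 - j) + c ^ 2 * (2 * n + 6 - j)) * P (j - 4)
        + 4 * c ^ 4 * (2 * n + 1) * P (j - 5) - 4 * c ^ 4 * (2 * n + 6 - j) * P (j - 6)) :
    (∀ j : ℕ, j ≤ 2 * n - 1 → 0 < P j) ∧ 0 < P (2 * n - 1) ∧
      |c| ^ (n - 1) * ((n : ℝ) * (n + 1) / 2) < P (2 * n - 2) := by
  have hc2 : 9 ≤ c ^ 2 := by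
    rw [← sq_abs]; nlinarith
  have hC0 : (0:ℝ) < c ^ 2 := by linarith
  have hc0 : c ≠ 0 := by
    rintro rfl; norm_num at hC0
  set a : ℝ := 1 / c ^ 2 with ha
  have ha0 : 0 < a := by rw [ha]; positivity
  have ha9 : a ≤ 1 / 9 := by
    rw [ha]; exact one_div_le_one_div_of_le (by norm_num) hc2
  have hca : c ^ 2 * a = 1 := by rw [ha]; field_simp
  set Q : ℤ → ℝ := fun i => P i * (c ^ 2) ^ (-i) with hQ
  have hPQ : ∀ i, P i = Q i * (c ^ 2) ^ i := by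
    intro i
    simp only [hQ]
    rw [mul_assoc, ← zpow_add₀ hC0.ne', neg_add_cancel, zpow_zero, mul_one]
  have hQneg : ∀ i < 0, Q i = 0 := by
    intro i hi; simp only [hQ]; rw [hneg i hi, zero_mul]
  have hQ0 : Q 0 = 1 := by simp [hQ, h0]
  have hQrec : ∀ j : ℤ, 1 ≤ j → j ≤ 2 * n - 1 → (j : ℝ) * Q j =
      2 * ((n : ℝ) - 1) * Q (j - 1) + 2 * a * (3 * j - n - 3) * Q (j - 2)
        - 2 * a * (4 * n + (n + 1) * a) * Q (j - 3)
        + (8 * a ^ 2 * (n + 3 - j) + a ^ 3 * (2 * n + 6 - j)) * Q (j - 4)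
        + 4 * a ^ 3 * (2 * n + 1) * Q (j - 5) - 4 * a ^ 4 * (2 * n + 6 - j) * Q (j - 6) := by
    intro j hj1 hj2
    have h := hrec j hj1 hj2
    rw [hPQ j, hPQ (j - 1), hPQ (j - 2), hPQ (j - 3), hPQ (j - 4), hPQ (j - 5), hPQ (j - 6)] at h
    have hz : ∀ m : ℕ, (c ^ 2) ^ (j - m) = (c ^ 2) ^ j * a ^ m := by
      intro m
      rw [zpow_sub₀ hC0.ne', zpow_natCast, ha, one_div, inv_pow]
      rfl
    have z1 := hz 1
    have z2 := hz 2
    have z3 := hz 3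
    have z4 := hz 4
    have z5 := hz 5
    have z6 := hz 6
    push_cast at z1 z2 z3 z4 z5 z6
    rw [z1, z2, z3, z4, z5, z6] at h
    have hJ : (c ^ 2) ^ j ≠ 0 := zpow_ne_zero _ hC0.ne'
    have hc4 : c ^ 4 = (c ^ 2) ^ 2 := by ring
    rw [hc4] at h
    have e1 : c ^ 2 * a = 1 := hca
    apply mul_right_cancel₀ hJ
    have t1 : c ^ 2 * a ^ 1 = 1 := by rw [pow_one]; exact e1
    have t2 : c ^ 2 * a ^ 2 = a := by
      calc c ^ 2 * a ^ 2 = (c ^ 2 * a) * a := by ring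
        _ = _ := by rw [e1, one_mul]
    have t3 : c ^ 2 * a ^ 3 = a ^ 2 := by
      calc c ^ 2 * a ^ 3 = (c ^ 2 * a) * a ^ 2 := by ring
        _ = _ := by rw [e1, one_mul]
    have t3' : (c ^ 2) ^ 2 * a ^ 3 = a := by
      calc (c ^ 2) ^ 2 * a ^ 3 = (c ^ 2 * a) ^ 2 * a := by ring
        _ = _ := by rw [e1]; ring
    have t4 : c ^ 2 * a ^ 4 = a ^ 3 := by
      calc c ^ 2 * a ^ 4 = (c ^ 2 * a) * a ^ 3 := by ring
        _ = _ := by rw [e1, one_mul]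
    have t4' : (c ^ 2) ^ 2 * a ^ 4 = a ^ 2 := by
      calc (c ^ 2) ^ 2 * a ^ 4 = (c ^ 2 * a) ^ 2 * a ^ 2 := by ring
        _ = _ := by rw [e1]; ring
    have t5' : (c ^ 2) ^ 2 * a ^ 5 = a ^ 3 := by
      calc (c ^ 2) ^ 2 * a ^ 5 = (c ^ 2 * a) ^ 2 * a ^ 3 := by ring
        _ = _ := by rw [e1]; ring
    have t6' : (c ^ 2) ^ 2 * a ^ 6 = a ^ 4 := by
      calc (c ^ 2) ^ 2 * a ^ 6 = (c ^ 2 * a) ^ 2 * a ^ 4 := by ring
        _ = _ := by rw [e1]; ring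
    linear_combination h + (2 * ((n : ℝ) - 1) * Q (j - 1) * (c ^ 2) ^ j) * t1
      + (2 * (3 * j - n - 3) * Q (j - 2) * (c ^ 2) ^ j) * t2
      - (8 * n * Q (j - 3) * (c ^ 2) ^ j) * t3' - (2 * (n + 1) * Q (j - 3) * (c ^ 2) ^ j) * t3
      + (8 * (n + 3 - j) * Q (j - 4) * (c ^ 2) ^ j) * t4'
      + ((2 * n + 6 - j) * Q (j - 4) * (c ^ 2) ^ j) * t4
      + (4 * (2 * n + 1) * Q (j - 5) * (c ^ 2) ^ j) * t5'
      - (4 * (2 * n + 6 - j) * Q (j - 6) * (c ^ 2) ^ j) * t6'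
  have hpos := pos_of_rec n hn a ha0 ha9 Q hQneg hQ0 hQrec
  have hPpos : ∀ j : ℕ, j ≤ 2 * n - 1 → 0 < P j := by
    intro j hj
    rw [hPQ]
    exact mul_pos (hpos j hj).1 (zpow_pos hC0 _)
  refine ⟨hPpos, ?_, ?_⟩
  · have := hPpos (2 * n - 1) le_rfl
    have e : ((2 * n - 1 : ℕ) : ℤ) = 2 * n - 1 := by omega
    rwa [e] at this
  · have hlow := lower_of_rec n hn a ha0 ha9 Q hQneg hQ0 hQrec (2 * n - 2) (by omega)
    have e : ((2 * n - 2 : ℕ) : ℤ) = 2 * n - 2 := by omega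
    have hfac : ((2 * n - 2).factorial : ℝ) ≤ (2 * ((n : ℝ) - 1)) ^ (2 * n - 2) := by
      have h1 : (2 * n - 2).factorial ≤ (2 * n - 2) ^ (2 * n - 2) := Nat.factorial_le_pow _
      have h2 : ((2 * n - 2 : ℕ) : ℝ) = 2 * ((n : ℝ) - 1) := by
        rw [Nat.cast_sub (by omega)]; push_cast; ring
      calc ((2 * n - 2).factorial : ℝ) ≤ (((2 * n - 2) ^ (2 * n - 2) : ℕ) : ℝ) := by
            exact_mod_cast h1
        _ = _ := by rw [← h2]; push_cast; rfl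
    have hnr : (2 : ℝ) ≤ n := by exact_mod_cast hn
    have hQp : 0 < Q ((2 * n - 2 : ℕ) : ℤ) := (hpos (2 * n - 2) (by omega)).1
    have hQl : (9/10 : ℝ) ^ (2 * n - 2) ≤ Q ((2 * n - 2 : ℕ) : ℤ) := by
      have h1 : (9/5 * ((n : ℝ) - 1)) ^ (2 * n - 2) ≤
          (2 * ((n : ℝ) - 1)) ^ (2 * n - 2) * Q ((2 * n - 2 : ℕ) : ℤ) :=
        hlow.trans (mul_le_mul_of_nonneg_right hfac hQp.le)
      have h2 : (9/5 * ((n : ℝ) - 1)) ^ (2 * n - 2) =
          (2 * ((n : ℝ) - 1)) ^ (2 * n - 2) * (9/10 : ℝ) ^ (2 * n - 2) := by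
        rw [← mul_pow]; congr 1; ring
      rw [h2] at h1
      exact le_of_mul_le_mul_left h1 (pow_pos (by linarith) _)
    have hPe : P (2 * n - 2) = Q ((2 * n - 2 : ℕ) : ℤ) * (c ^ 2) ^ (2 * n - 2) := by
      rw [← e, hPQ, zpow_natCast]
    rw [hPe]
    have h3 : (9/10 : ℝ) ^ (2 * n - 2) * (c ^ 2) ^ (2 * n - 2) ≤
        Q ((2 * n - 2 : ℕ) : ℤ) * (c ^ 2) ^ (2 * n - 2) :=
      mul_le_mul_of_nonneg_right hQl (by positivity)
    refine lt_of_lt_of_le ?_ h3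
    have e2 : 2 * n - 2 = 2 * (n - 1) := by omega
    rw [← mul_pow, e2, pow_mul]
    have h4 : |c| * 21 ≤ ((9/10 : ℝ) * c ^ 2) ^ 2 := by
      have h5 : ((9/10 : ℝ) * c ^ 2) ^ 2 = 81/100 * |c| ^ 4 := by
        have : c ^ 2 = |c| ^ 2 := (sq_abs c).symm
        rw [this]; ring
      rw [h5]
      nlinarith [pow_le_pow_left₀ (by norm_num : (0:ℝ) ≤ 3) hc 3, abs_nonneg c]
    calc |c| ^ (n - 1) * ((n : ℝ) * (n + 1) / 2) < |c| ^ (n - 1) * 21 ^ (n - 1) :=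
          mul_lt_mul_of_pos_left (tri_lt n hn) (by positivity)
      _ = (|c| * 21) ^ (n - 1) := by rw [mul_pow]
      _ ≤ _ := pow_le_pow_left₀ (by positivity) h4 _

end Vale.Agent.P231.H29
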