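import Vale.Agent.P231.H29.Pos

/-! Block ALG-POS of the weak Blaschke theorem (`l = 3`), the case `|c| = 2`. -/

open Finset PowerSeries

namespace Vale.Agent.P231.H29

namespace Two

/-! ### the positive series `E` -/

/-- auxiliary sequence -/
noncomputable def t : ℕ → ℝ
  | 0 => 1
  | 1 => 3 / 4
  | 2 => 19 / 16
  | n + 3 => 5 / 2 * t (n + 2) - 11 / 8 * t (n + 1)

/-- coefficients of `(1 - 7v/4 + 11v²/16) / ((1 - 5v/2 + 11v²/8) (1 - 3v/2 + 3v²/8))` -/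
noncomputable def e : ℕ → ℝ
  | 0 => 1
  | 1 => 9 / 4
  | n + 2 => 3 / 2 * e (n + 1) - 3 / 8 * e n + t (n + 2)

theorem t_ratio (n : ℕ) : 0 < t (n + 1) ∧ 3 / 2 * t (n + 1) ≤ t (n + 2) := by
  induction n with
  | zero => simp only [t]; norm_num
  | succ n ih =>
    have h : t (n + 1 + 2) = 5 / 2 * t (n + 2) - 11 / 8 * t (n + 1) := by rw [t]
    have h2 : t (n + 1 + 1) = t (n + 2) := rfl
    rw [h, h2]
    obtain ⟨h3, h4⟩ := ih
    constructor <;> nlinarith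

theorem z_nonneg (n : ℕ) : 0 ≤ t (n + 2) - 3 / 8 * e n ∧
    1 / 2 * (t (n + 2) - 3 / 8 * e n) ≤ t (n + 3) - 3 / 8 * e (n + 1) := by
  induction n with
  | zero => simp only [t, e]; norm_num
  | succ n ih =>
    obtain ⟨h1, h2⟩ := ih
    have h3 : e (n + 1 + 1) = 3 / 2 * e (n + 1) - 3 / 8 * e n + t (n + 2) := by rw [e]
    have h4 := (t_ratio (n + 2)).2
    have h5 : t (n + 2 + 1) = t (n + 3) := rfl
    have h6 : t (n + 2 + 2) = t (n + 4) := rfl
    rw [h5, h6] at h4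
    have h7 : t (n + 1 + 2) = t (n + 3) := rfl
    have h8 : t (n + 1 + 3) = t (n + 4) := rfl
    rw [h7, h8, h3]
    constructor <;> nlinarith

theorem e_ratio (n : ℕ) : 0 < e n ∧ 3 / 2 * e n ≤ e (n + 1) := by
  induction n with
  | zero => simp only [e]; norm_num
  | succ n ih =>
    have h1 : e (n + 1 + 1) = 3 / 2 * e (n + 1) - 3 / 8 * e n + t (n + 2) := by rw [e]
    have h2 := (z_nonneg n).1
    constructor
    · nlinarith [ih.1, ih.2]
    · rw [h1]; linarith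

theorem e_pos (n : ℕ) : 0 < e n := (e_ratio n).1

theorem e_lower (n : ℕ) : 2 * ((n : ℝ) + 5) ≤ e (n + 4) := by
  induction n with
  | zero => simp only [e, t]; norm_num
  | succ n ih =>
    have h := (e_ratio (n + 4)).2
    have h2 : e (n + 1 + 4) = e (n + 4 + 1) := by congr 1
    rw [h2]
    push_cast
    have : (0 : ℝ) ≤ n := Nat.cast_nonneg n
    nlinarith

theorem e_key (n : ℕ) : (n : ℝ) + 5 + 3 / 16 * e (n + 2) + 15 / 64 * e (n + 1) + 3 / 64 * e n ≤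
    3 / 4 * e (n + 4) := by
  have h0 := (e_ratio n).2
  have h1 := (e_ratio (n + 1)).2
  have h2 := (e_ratio (n + 2)).2
  have h3 := (e_ratio (n + 3)).2
  have h4 := e_lower n
  have e1 : e (n + 1 + 1) = e (n + 2) := rfl
  have e2 : e (n + 2 + 1) = e (n + 3) := rfl
  have e3 : e (n + 3 + 1) = e (n + 4) := rfl
  rw [e1] at h1
  rw [e2] at h2
  rw [e3] at h3
  have := e_pos n
  nlinarith

/-! ### the positive sequence `a` -/

/-- the coefficients of `Γ^(2N)`, `c = 3N/2` -/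
noncomputable def a (c : ℝ) : ℕ → ℝ
  | 0 => 1
  | 1 => 0
  | k + 2 => c / (k + 2) * ∑ i : Fin (k + 1), e i * a c (k - i)
  decreasing_by omega

theorem a_zero (c : ℝ) : a c 0 = 1 := by rw [a]
theorem a_one (c : ℝ) : a c 1 = 0 := by rw [a]

theorem a_rec (c : ℝ) (k : ℕ) :
    ((k : ℝ) + 2) * a c (k + 2) = c * ∑ i ∈ range (k + 1), e i * a c (k - i) := by
  rw [a, ← Fin.sum_univ_eq_sum_range (fun i => e i * a c (k - i))]
  have : (k : ℝ) + 2 ≠ 0 := by positivity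
  field_simp

theorem a_nonneg {c : ℝ} (hc : 0 < c) (j : ℕ) : 0 ≤ a c j := by
  induction j using Nat.strong_induction_on with
  | _ j ih =>
    match j with
    | 0 => rw [a_zero]; norm_num
    | 1 => exact (a_one c).ge
    | k + 2 =>
      have h := a_rec c k
      have h1 : 0 ≤ ∑ i ∈ range (k + 1), e i * a c (k - i) :=
        Finset.sum_nonneg fun i _ => mul_nonneg (e_pos i).le (ih _ (by omega))
      have h2 : (0 : ℝ) < (k : ℝ) + 2 := by positivity
      have h3 : 0 ≤ ((k : ℝ) + 2) * a c (k + 2) := by rw [h]; exact mul_nonneg hc.le h1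
      exact nonneg_of_mul_nonneg_right h3 h2

theorem a_even_pos {c : ℝ} (hc : 0 < c) (j : ℕ) : 0 < a c (2 * j) := by
  induction j with
  | zero => rw [mul_zero, a_zero]; norm_num
  | succ j ih =>
    have h := a_rec c (2 * j)
    have e1 : 2 * (j + 1) = 2 * j + 2 := by ring
    rw [e1]
    have h1 : 0 < ∑ i ∈ range (2 * j + 1), e i * a c (2 * j - i) := by
      refine Finset.sum_pos' (fun i _ => mul_nonneg (e_pos i).le (a_nonneg hc _))
        ⟨0, by simp, ?_⟩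
      rw [Nat.sub_zero]
      exact mul_pos (e_pos 0) ih
    have h2 : (0 : ℝ) < ((2 * j : ℕ) : ℝ) + 2 := by positivity
    have h3 : 0 < (((2 * j : ℕ) : ℝ) + 2) * a c (2 * j + 2) := by rw [h]; exact mul_pos hc h1
    exact (mul_pos_iff_of_pos_left h2).1 h3

/-- shifted convolution -/
theorem conv_shift (c : ℝ) (k s : ℕ) :
    ∑ l ∈ range (k + s + 1), (if s ≤ l then e (l - s) else 0) * a c (k + s - l) =
      ∑ i ∈ range (k + 1), e i * a c (k - i) := by
  induction s with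
  | zero => simp
  | succ s ih =>
    rw [← ih, show k + (s + 1) + 1 = (k + s + 1) + 1 by ring, Finset.sum_range_succ']
    have h0 : (if s + 1 ≤ 0 then e (0 - (s + 1)) else 0) * a c (k + (s + 1) - 0) = 0 := by
      rw [if_neg (by omega), zero_mul]
    rw [h0, add_zero]
    refine Finset.sum_congr rfl fun l _ => ?_
    have e1 : k + (s + 1) - (l + 1) = k + s - l := by omega
    have e2 : l + 1 - (s + 1) = l - s := by omega
    rw [e1, e2]
    simp only [Nat.add_le_add_iff_right]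

/-- shifted `e` -/
noncomputable def ev (s l : ℕ) : ℝ := if s ≤ l then e (l - s) else 0

/-- the coefficients -/
noncomputable def cf (α p q s P Q S : ℝ) (l : ℕ) : ℝ :=
  α * e l - (l + 1) + (p * (if l = 0 then 1 else 0) - P * ev 2 l) +
    (q * (if l = 1 then 1 else 0) - Q * ev 3 l) + (s * (if l = 2 then 1 else 0) - S * ev 4 l)

theorem he0 : e 0 = 1 := by simp only [e]
theorem he1 : e 1 = 9 / 4 := by simp only [e]
theorem he2 : e 2 = 67 / 16 := by simp only [e, t]; norm_num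
theorem he3 : e 3 = 59 / 8 := by simp only [e, t]; norm_num

section Coef

variable {α p q s P Q S : ℝ} (hα : 3 / 4 ≤ α) (hp : 1 - α ≤ p) (hq : 2 - 9 / 4 * α ≤ q)
  (hs : 3 + P - 67 / 16 * α ≤ s) (hP : P ≤ 3 / 16) (hQ : Q ≤ 15 / 64) (hS : S ≤ 3 / 64)

include hα hP hQ in
theorem cf_three : 0 < cf α p q s P Q S 3 := by
  have h2 : ev 2 3 = 9 / 4 := by rw [ev, if_pos (by norm_num)]; exact he1
  have h3 : ev 3 3 = 1 := by rw [ev, if_pos (by norm_num)]; exact he0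
  have h4 : ev 4 3 = 0 := by rw [ev, if_neg (by norm_num)]
  rw [cf, h2, h3, h4, he3, if_neg (by norm_num), if_neg (by norm_num), if_neg (by norm_num)]
  push_cast
  linarith

include hα hP hQ hS in
theorem cf_four (n : ℕ) : 0 ≤ cf α p q s P Q S (n + 4) := by
  have h2 : ev 2 (n + 4) = e (n + 2) := by rw [ev, if_pos (by omega)]; rfl
  have h3 : ev 3 (n + 4) = e (n + 1) := by rw [ev, if_pos (by omega)]; rfl
  have h4 : ev 4 (n + 4) = e n := by rw [ev, if_pos (by omega)]; rfl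
  rw [cf, h2, h3, h4, if_neg (by omega), if_neg (by omega), if_neg (by omega)]
  have h5 := e_key n
  have p1 := mul_le_mul_of_nonneg_right hP (e_pos (n + 2)).le
  have p2 := mul_le_mul_of_nonneg_right hQ (e_pos (n + 1)).le
  have p3 := mul_le_mul_of_nonneg_right hS (e_pos n).le
  have p4 := mul_le_mul_of_nonneg_right hα (e_pos (n + 4)).le
  push_cast
  linarith

include hα hp hq hs hP hQ hS in
theorem cf_nonneg (l : ℕ) : 0 ≤ cf α p q s P Q S l := by
  match l with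
  | 0 =>
    have h2 : ev 2 0 = 0 := by rw [ev, if_neg (by norm_num)]
    have h3 : ev 3 0 = 0 := by rw [ev, if_neg (by norm_num)]
    have h4 : ev 4 0 = 0 := by rw [ev, if_neg (by norm_num)]
    rw [cf, h2, h3, h4, he0, if_pos rfl, if_neg (by norm_num), if_neg (by norm_num)]
    push_cast
    linarith
  | 1 =>
    have h2 : ev 2 1 = 0 := by rw [ev, if_neg (by norm_num)]
    have h3 : ev 3 1 = 0 := by rw [ev, if_neg (by norm_num)]
    have h4 : ev 4 1 = 0 := by rw [ev, if_neg (by norm_num)]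
    rw [cf, h2, h3, h4, he1, if_neg (by norm_num), if_pos rfl, if_neg (by norm_num)]
    push_cast
    linarith
  | 2 =>
    have h2 : ev 2 2 = 1 := by rw [ev, if_pos (by norm_num)]; exact he0
    have h3 : ev 3 2 = 0 := by rw [ev, if_neg (by norm_num)]
    have h4 : ev 4 2 = 0 := by rw [ev, if_neg (by norm_num)]
    rw [cf, h2, h3, h4, he2, if_neg (by norm_num), if_neg (by norm_num), if_pos rfl]
    push_cast
    linarith
  | 3 => exact (cf_three hα hP hQ).le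
  | n + 4 => exact cf_four hα hP hQ hS n

end Coef

/-- constants -/
theorem consts (N : ℕ) (hN : 4 ≤ N) {K c : ℝ} (hK : K = 2 * N - 5) (hc : c = 3 / 2 * N) :
    ∃ p q s : ℝ, 3 / 4 ≤ c / (K + 2) ∧ 1 - c / (K + 2) ≤ p ∧ 2 - 9 / 4 * (c / (K + 2)) ≤ q ∧
      3 + p * (c / K) - 67 / 16 * (c / (K + 2)) ≤ s ∧ p * (c / K) ≤ 3 / 16 ∧
      q * (c / (K - 1)) ≤ 15 / 64 ∧ s * (c / (K - 2)) ≤ 3 / 64 := by
  have hNr : (4 : ℝ) ≤ N := by exact_mod_cast hN
  set α : ℝ := c / (K + 2) with hα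
  have hα' : α = 3 * N / (4 * N - 6) := by
    rw [hα, hc, hK, div_eq_div_iff (by linarith) (by linarith)]; ring
  have hα1 : 3 / 4 ≤ α := by
    rw [hα', div_le_div_iff₀ (by norm_num) (by linarith)]; linarith
  have hP : max (1 - α) 0 * (c / K) ≤ 3 / 16 := by
    have h1 : c / K = 3 * N / (4 * N - 10) := by
      rw [hc, hK, div_eq_div_iff (by linarith) (by linarith)]; ring
    rw [h1]
    rcases le_total (1 - α) 0 with h | h
    · rw [max_eq_right h, zero_mul]; norm_num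
    · rw [max_eq_left h, hα']
      have h2 : (1 : ℝ) - 3 * N / (4 * N - 6) = (N - 6) / (4 * N - 6) := by
        rw [eq_div_iff (by linarith), sub_mul, div_mul_cancel₀ _ (by linarith)]; ring
      rw [h2, div_mul_div_comm, div_le_div_iff₀ (by nlinarith) (by norm_num)]
      nlinarith
  have hQ : max (2 - 9 / 4 * α) 0 * (c / (K - 1)) ≤ 15 / 64 := by
    have h1 : c / (K - 1) = 3 * N / (4 * N - 12) := by
      rw [hc, hK, div_eq_div_iff (by linarith) (by linarith)]; ring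
    rw [h1]
    rcases le_total (2 - 9 / 4 * α) 0 with h | h
    · rw [max_eq_right h, zero_mul]; norm_num
    · rw [max_eq_left h, hα']
      have h2 : (2 : ℝ) - 9 / 4 * (3 * N / (4 * N - 6)) = (5 / 4 * N - 12) / (4 * N - 6) := by
        rw [eq_div_iff (by linarith), sub_mul, mul_assoc, div_mul_cancel₀ _ (by linarith)]; ring
      rw [h2, div_mul_div_comm, div_le_div_iff₀ (by nlinarith) (by norm_num)]
      nlinarith
  set P := max (1 - α) 0 * (c / K) with hPd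
  refine ⟨max (1 - α) 0, max (2 - 9 / 4 * α) 0, max (3 + P - 67 / 16 * α) 0, hα1, le_max_left _ _,
    le_max_left _ _, le_max_left _ _, hP, hQ, ?_⟩
  have h1 : c / (K - 2) = 3 * N / (4 * N - 14) := by
    rw [hc, hK, div_eq_div_iff (by linarith) (by linarith)]; ring
  rcases le_or_gt N 13 with h | h
  · have hN13 : (N : ℝ) ≤ 13 := by exact_mod_cast h
    have h2 : 39 / 46 ≤ α := by
      rw [hα', div_le_div_iff₀ (by norm_num) (by linarith)]; linarith
    rw [max_eq_right (by linarith), zero_mul]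
    norm_num
  · have hN14 : (14 : ℝ) ≤ N := by exact_mod_cast h
    have h2 : c / (K - 2) ≤ 1 := by
      rw [h1, div_le_one (by linarith)]; linarith
    have h3 : max (3 + P - 67 / 16 * α) 0 ≤ 3 / 64 := max_le (by linarith) (by norm_num)
    calc _ ≤ max (3 + P - 67 / 16 * α) 0 * 1 := mul_le_mul_of_nonneg_left h2 (le_max_right _ _)
      _ ≤ 3 / 64 := by rw [mul_one]; exact h3

/-- the final positivity -/
theorem final_pos (N : ℕ) (hN : 4 ≤ N) :
    0 < ∑ i ∈ range (2 * N - 3 + 1), a (3 / 2 * N) i * (1 - ((2 * N - 3 - i : ℕ) : ℝ)) := by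
  obtain ⟨c, hc⟩ : ∃ c : ℝ, c = 3 / 2 * N := ⟨_, rfl⟩
  rw [← hc]
  have hNr : (4 : ℝ) ≤ N := by exact_mod_cast hN
  have hc0 : 0 < c := by rw [hc]; linarith
  obtain ⟨K, hK⟩ : ∃ K, K = 2 * N - 5 := ⟨_, rfl⟩
  have hK3 : 3 ≤ K := by omega
  have hKr : (K : ℝ) = 2 * N - 5 := by
    have : K + 5 = 2 * N := by omega
    have h2 : ((K + 5 : ℕ) : ℝ) = ((2 * N : ℕ) : ℝ) := by rw [this]
    push_cast at h2
    linarith
  have e1 : 2 * N - 3 = K + 2 := by omega
  rw [e1]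
  -- rewriting the sum
  have hsum : ∑ i ∈ range (K + 2 + 1), a c i * (1 - ((K + 2 - i : ℕ) : ℝ)) =
      a c (K + 2) - ∑ l ∈ range (K + 1), ((l : ℝ) + 1) * a c (K - l) := by
    rw [Finset.sum_range_succ, Nat.sub_self, Nat.cast_zero, sub_zero, mul_one,
      Finset.sum_range_succ]
    have h1 : K + 2 - (K + 1) = 1 := by omega
    rw [h1, Nat.cast_one, sub_self, mul_zero, add_zero]
    have h2 : ∑ l ∈ range (K + 1), ((l : ℝ) + 1) * a c (K - l) =
        ∑ i ∈ range (K + 1), -(a c i * (1 - ((K + 2 - i : ℕ) : ℝ))) := by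
      rw [← Finset.sum_range_reflect]
      refine Finset.sum_congr rfl fun i hi => ?_
      have hi' : i ≤ K := by simpa [Nat.lt_succ_iff] using hi
      have h3 : K - (K + 1 - 1 - i) = i := by omega
      have h4 : K + 2 - i = (K + 1 - 1 - i) + 2 := by omega
      rw [h3, h4]
      push_cast
      ring
    rw [h2, Finset.sum_neg_distrib]
    ring
  rw [hsum]
  obtain ⟨b, hb⟩ : ∃ b : ℕ → ℝ, b = fun l => a c (K - l) := ⟨_, rfl⟩
  have hbl : ∀ l, a c (K - l) = b l := fun l => by rw [hb]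
  simp only [hbl]
  have hb0 : ∀ l, 0 ≤ b l := fun l => by rw [hb]; exact a_nonneg hc0 _
  have hmain : a c (K + 2) = c / (K + 2) * ∑ l ∈ range (K + 1), e l * b l := by
    have h := a_rec c K
    simp only [hbl] at h
    have h2 : (K : ℝ) + 2 ≠ 0 := by positivity
    rw [div_mul_eq_mul_div, eq_div_iff h2, mul_comm, h]
  have hR : ∀ s, s ≤ K → ((K : ℝ) - s + 2) * a c (K - s + 2) =
      c * ∑ l ∈ range (K + 1), ev s l * b l := by
    intro s hs
    have h := a_rec c (K - s)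
    rw [← conv_shift c (K - s) s, Nat.sub_add_cancel hs, Nat.cast_sub hs] at h
    simp only [hbl] at h
    exact h
  have hR2 : b 0 = c / K * ∑ l ∈ range (K + 1), ev 2 l * b l := by
    have h := hR 2 (by omega)
    have h1 : K - 2 + 2 = K - 0 := by omega
    rw [h1, hbl] at h
    have h2 : (K : ℝ) ≠ 0 := by rw [hKr]; intro h; linarith
    rw [div_mul_eq_mul_div, eq_div_iff h2, ← h]
    push_cast
    ring
  have hR3 : b 1 = c / (K - 1) * ∑ l ∈ range (K + 1), ev 3 l * b l := by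
    have h := hR 3 (by omega)
    have h1 : K - 3 + 2 = K - 1 := by omega
    rw [h1, hbl] at h
    have h2 : (K : ℝ) - 1 ≠ 0 := by rw [hKr]; intro h; linarith
    rw [div_mul_eq_mul_div, eq_div_iff h2, ← h]
    push_cast
    ring
  have hR4 : b 2 = c / (K - 2) * ∑ l ∈ range (K + 1), ev 4 l * b l := by
    rcases Nat.eq_or_lt_of_le hK3 with h3 | h3
    · have h4 : ∀ l ∈ range (K + 1), ev 4 l * b l = 0 := by
        intro l hl
        have : l < K + 1 := by simpa using hl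
        rw [ev, if_neg (by omega), zero_mul]
      rw [Finset.sum_eq_zero h4, mul_zero, ← hbl, ← h3]
      exact a_one c
    · have h := hR 4 (by omega)
      have h1 : K - 4 + 2 = K - 2 := by omega
      rw [h1, hbl] at h
      have h2 : (K : ℝ) - 2 ≠ 0 := by rw [hKr]; intro h; linarith
      rw [div_mul_eq_mul_div, eq_div_iff h2, ← h]
      push_cast
      ring
  obtain ⟨p, q, s, k1, k2, k3, k4, k5, k6, k7⟩ := consts N hN hKr hc
  have hcomb : a c (K + 2) - ∑ l ∈ range (K + 1), ((l : ℝ) + 1) * b l =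
      ∑ l ∈ range (K + 1), cf (c / (K + 2)) p q s (p * (c / K)) (q * (c / (K - 1)))
        (s * (c / (K - 2))) l * b l := by
    have hd : ∀ r, r < K + 1 → ∑ l ∈ range (K + 1), (if l = r then (1 : ℝ) else 0) * b l = b r := by
      intro r hr
      simp [hr]
    have h1 : ∀ l, cf (c / (K + 2)) p q s (p * (c / K)) (q * (c / (K - 1)))
        (s * (c / (K - 2))) l * b l =
        (c / (K + 2)) * (e l * b l) - ((l : ℝ) + 1) * b l +
        p * ((if l = 0 then 1 else 0) * b l) - p * (c / K) * (ev 2 l * b l) +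
        q * ((if l = 1 then 1 else 0) * b l) - q * (c / (K - 1)) * (ev 3 l * b l) +
        s * ((if l = 2 then 1 else 0) * b l) - s * (c / (K - 2)) * (ev 4 l * b l) := by
      intro l; rw [cf]; ring
    simp only [h1]
    rw [Finset.sum_sub_distrib, Finset.sum_add_distrib, Finset.sum_sub_distrib,
      Finset.sum_add_distrib, Finset.sum_sub_distrib, Finset.sum_add_distrib,
      Finset.sum_sub_distrib]
    simp only [← Finset.mul_sum]
    rw [hd 0 (by omega), hd 1 (by omega), hd 2 (by omega), hmain]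
    linear_combination (-p) * hR2 - q * hR3 - s * hR4
  rw [hcomb]
  refine Finset.sum_pos' (fun l _ => mul_nonneg (cf_nonneg k1 k2 k3 k4 k5 k6 k7 l) (hb0 l))
    ⟨3, by simp; omega, ?_⟩
  refine mul_pos (cf_three k1 k5 k6) ?_
  obtain ⟨r, hr⟩ : ∃ r, K - 3 = 2 * r := ⟨N - 4, by omega⟩
  rw [← hbl, hr]
  exact a_even_pos hc0 r

/-! ### power series -/

/-- coefficients, zero for negative indices -/
noncomputable def z (F : ℝ⟦X⟧) (i : ℤ) : ℝ := if 0 ≤ i then coeff i.toNat F else 0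

theorem z_nat (F : ℝ⟦X⟧) (n : ℕ) : z F n = coeff n F := by
  rw [z, if_pos (by positivity), Int.toNat_natCast]

theorem z_neg (F : ℝ⟦X⟧) {i : ℤ} (hi : i < 0) : z F i = 0 := by
  rw [z, if_neg (by omega)]

theorem coeff_Xpow (s l : ℕ) (F : ℝ⟦X⟧) : coeff l (X ^ s * F) = z F ((l : ℤ) - s) := by
  rw [coeff_X_pow_mul']
  by_cases h : s ≤ l
  · have e1 : ((l : ℤ) - s) = ((l - s : ℕ) : ℤ) := by omega
    rw [if_pos h, e1, z_nat]
  · rw [if_neg h, z_neg F (by omega)]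

theorem z_derivative (F : ℝ⟦X⟧) (i : ℤ) :
    z (derivative ℝ F) i = ((i : ℝ) + 1) * z F (i + 1) := by
  rcases lt_or_ge i 0 with h | h
  · rw [z_neg _ h]
    rcases eq_or_lt_of_le (show i ≤ -1 by omega) with h2 | h2
    · subst h2; norm_num
    · rw [z_neg F (by omega), mul_zero]
  · obtain ⟨n, rfl⟩ := Int.eq_ofNat_of_zero_le h
    rw [z_nat, coeff_derivative]
    have e1 : ((n : ℤ) + 1) = ((n + 1 : ℕ) : ℤ) := by push_cast; ring
    rw [e1, z_nat]
    push_cast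
    ring

theorem F1 : (C 8 * (X ^ 0 * PowerSeries.mk t) - C 20 * (X ^ 1 * PowerSeries.mk t) +
    C 11 * (X ^ 2 * PowerSeries.mk t) : ℝ⟦X⟧) = C 8 * X ^ 0 - C 14 * X ^ 1 + C (11 / 2) * X ^ 2 := by
  ext l
  simp only [map_add, map_sub, coeff_C_mul, coeff_Xpow, coeff_X_pow]
  match l with
  | 0 => simp [z, t]
  | 1 => simp [z, t]; norm_num
  | 2 => simp [z, t]; norm_num
  | n + 3 =>
    have h : t (n + 3) = 5 / 2 * t (n + 2) - 11 / 8 * t (n + 1) := by rw [t]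
    have e0 : (((n + 3 : ℕ) : ℤ) - (0 : ℕ)) = ((n + 3 : ℕ) : ℤ) := by push_cast; ring
    have e1 : (((n + 3 : ℕ) : ℤ) - (1 : ℕ)) = ((n + 2 : ℕ) : ℤ) := by push_cast; ring
    have e2 : (((n + 3 : ℕ) : ℤ) - (2 : ℕ)) = ((n + 1 : ℕ) : ℤ) := by push_cast; ring
    rw [e0, e1, e2, z_nat, z_nat, z_nat, coeff_mk, coeff_mk, coeff_mk, if_neg (by omega),
      if_neg (by omega), if_neg (by omega), h]
    ring

theorem F2 : (C 8 * (X ^ 0 * PowerSeries.mk e) - C 12 * (X ^ 1 * PowerSeries.mk e) +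
    C 3 * (X ^ 2 * PowerSeries.mk e) : ℝ⟦X⟧) = C 8 * (X ^ 0 * PowerSeries.mk t) := by
  ext l
  simp only [map_add, map_sub, coeff_C_mul, coeff_Xpow]
  match l with
  | 0 => simp [z, t, e]
  | 1 => simp [z, t, e]; norm_num
  | n + 2 =>
    have h : e (n + 2) = 3 / 2 * e (n + 1) - 3 / 8 * e n + t (n + 2) := by rw [e]
    have e0 : (((n + 2 : ℕ) : ℤ) - (0 : ℕ)) = ((n + 2 : ℕ) : ℤ) := by push_cast; ring
    have e1 : (((n + 2 : ℕ) : ℤ) - (1 : ℕ)) = ((n + 1 : ℕ) : ℤ) := by push_cast; ring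
    have e2 : (((n + 2 : ℕ) : ℤ) - (2 : ℕ)) = (n : ℤ) := by push_cast; ring
    rw [e0, e1, e2, z_nat, z_nat, z_nat, z_nat, coeff_mk, coeff_mk, coeff_mk, coeff_mk, h]
    ring

theorem F3 (c : ℝ) : derivative ℝ (PowerSeries.mk (a c)) =
    C c * (X * (PowerSeries.mk e * PowerSeries.mk (a c))) := by
  ext l
  rw [coeff_derivative, coeff_C_mul, coeff_mk]
  cases l with
  | zero => rw [coeff_zero_X_mul, a_one]; simp
  | succ k =>
    rw [coeff_succ_X_mul, coeff_mul, Finset.Nat.sum_antidiagonal_eq_sum_range_succ_mk]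
    have h := a_rec c k
    simp only [coeff_mk]
    have e1 : a c (k + 1 + 1) = a c (k + 2) := rfl
    rw [e1, ← h]
    push_cast
    ring

/-- the equation of `A`, multiplied by `64` -/
theorem F4 (c : ℝ) : (64 - 256 * X + 352 * X ^ 2 - 192 * X ^ 3 + 33 * X ^ 4 : ℝ⟦X⟧) *
    derivative ℝ (PowerSeries.mk (a c)) =
      C c * ((64 * X - 112 * X ^ 2 + 44 * X ^ 3) * PowerSeries.mk (a c)) := by
  have h1 := F1
  have h2 := F2
  rw [F3]
  have hh : (C (11 / 2) : ℝ⟦X⟧) * 2 = 11 := by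
    rw [← map_ofNat (C (R := ℝ)) 2, ← map_mul, ← map_ofNat (C (R := ℝ)) 11]
    norm_num
  simp only [map_ofNat] at h1 h2
  linear_combination (8 * C c * X * PowerSeries.mk (a c)) * h1 +
    (8 - 20 * X + 11 * X ^ 2) * (C c * X * PowerSeries.mk (a c)) * h2 +
    4 * C c * X ^ 3 * PowerSeries.mk (a c) * hh

/-- the truncated series -/
noncomputable def At (c : ℝ) (m : ℕ) : Polynomial ℝ := trunc (m + 1) (PowerSeries.mk (a c))

/-- the error polynomial -/
noncomputable def Bp (c : ℝ) (m : ℕ) : Polynomial ℝ :=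
  (64 - 256 * Polynomial.X + 352 * Polynomial.X ^ 2 - 192 * Polynomial.X ^ 3 +
    33 * Polynomial.X ^ 4) * Polynomial.derivative (At c m) -
      Polynomial.C c * ((64 * Polynomial.X - 112 * Polynomial.X ^ 2 + 44 * Polynomial.X ^ 3) * At c m)

theorem Bp_dvd (c : ℝ) (m : ℕ) : Polynomial.X ^ m ∣ Bp c m := by
  rw [Polynomial.X_pow_dvd_iff]
  have h1 : (X : ℝ⟦X⟧) ^ m ∣ ((Bp c m : Polynomial ℝ) : ℝ⟦X⟧) := by
    obtain ⟨R, hR⟩ : ∃ R : ℝ⟦X⟧, PowerSeries.mk (a c) = ((At c m : Polynomial ℝ) : ℝ⟦X⟧) +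
        X ^ (m + 1) * R := by
      have := eq_X_pow_mul_shift_add_trunc (m + 1) (PowerSeries.mk (a c))
      rw [add_comm] at this
      exact ⟨_, this⟩
    have hd : derivative ℝ (PowerSeries.mk (a c)) =
        ((Polynomial.derivative (At c m) : Polynomial ℝ) : ℝ⟦X⟧) +
          X ^ m * (((m : ℝ⟦X⟧) + 1) * R + X * derivative ℝ R) := by
      rw [hR, map_add, derivative_coe, Derivation.leibniz, Derivation.leibniz_pow, derivative_X,
        Nat.add_sub_cancel, smul_eq_mul, smul_eq_mul, smul_eq_mul, mul_one, nsmul_eq_mul]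
      push_cast
      ring
    have h2 := F4 c
    rw [hd, hR] at h2
    refine ⟨-((64 - 256 * X + 352 * X ^ 2 - 192 * X ^ 3 + 33 * X ^ 4) *
      (((m : ℝ⟦X⟧) + 1) * R + X * derivative ℝ R)) +
      C c * ((64 * X - 112 * X ^ 2 + 44 * X ^ 3) * (X * R)), ?_⟩
    have h3 : ((Bp c m : Polynomial ℝ) : ℝ⟦X⟧) =
        (64 - 256 * X + 352 * X ^ 2 - 192 * X ^ 3 + 33 * X ^ 4) *
          ((Polynomial.derivative (At c m) : Polynomial ℝ) : ℝ⟦X⟧) -
          C c * ((64 * X - 112 * X ^ 2 + 44 * X ^ 3) * ((At c m : Polynomial ℝ) : ℝ⟦X⟧)) := by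
      rw [Bp, ← Polynomial.coeToPowerSeries.ringHom_apply]
      simp only [map_sub, map_add, map_mul, map_pow, map_ofNat,
        Polynomial.coeToPowerSeries.ringHom_apply, Polynomial.coe_X, Polynomial.coe_C]
    rw [h3]
    linear_combination h2
  intro d hd
  have := (X_pow_dvd_iff.1 h1) d hd
  rwa [Polynomial.coeff_coe] at this

/-- `1 / (1 + X)` -/
noncomputable def V : ℝ⟦X⟧ := (1 + X)⁻¹

theorem hV : (1 + X) * V = 1 := by
  rw [V]
  exact PowerSeries.mul_inv_cancel _ (by simp)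

/-- the substitution `v = X / (1 + X)` -/
noncomputable def Φ : Polynomial ℝ →ₐ[ℝ] ℝ⟦X⟧ := Polynomial.aeval (X * V)

theorem Φ_X : Φ Polynomial.X = X * V := Polynomial.aeval_X _

theorem Φ_C (r : ℝ) : Φ (Polynomial.C r) = C r := by
  rw [Φ, Polynomial.aeval_C]
  rfl

theorem derivative_V : derivative ℝ V = - V ^ 2 := by
  have h := congrArg (derivative ℝ) hV
  rw [Derivation.leibniz, map_add, derivative_X, derivative_one, smul_eq_mul, smul_eq_mul,
    zero_add, mul_one] at h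
  have h2 := hV
  linear_combination V * h - derivative ℝ V * h2

theorem derivative_Φ (P : Polynomial ℝ) :
    derivative ℝ (Φ P) = Φ (Polynomial.derivative P) * V ^ 2 := by
  rw [Φ, Derivation.map_aeval, Derivation.leibniz, derivative_X, derivative_V, smul_eq_mul,
    smul_eq_mul, smul_eq_mul, mul_one]
  have h2 := hV
  linear_combination (-(Polynomial.aeval (X * V) (Polynomial.derivative P))) * V * h2

/-- the series whose coefficients solve the recursion up to index `m` -/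
noncomputable def qs (c : ℝ) (m : ℕ) : ℝ⟦X⟧ := (1 - X) * ((1 + X) ^ m * Φ (At c m))

theorem main_identity (N : ℕ) (hN : 2 ≤ N) :
    (64 - 96 * X ^ 2 + 33 * X ^ 4 - X ^ 6 : ℝ⟦X⟧) * derivative ℝ (qs (3 / 2 * N) (2 * N - 3)) -
      (128 * ((N : ℝ⟦X⟧) - 2) + 32 * (4 - (N : ℝ⟦X⟧)) * X - (136 * (N : ℝ⟦X⟧) - 128) * X ^ 2 +
        (34 * (N : ℝ⟦X⟧) - 64) * X ^ 3 + (8 * (N : ℝ⟦X⟧) - 4) * X ^ 4 -
        (2 * (N : ℝ⟦X⟧) - 2) * X ^ 5) * qs (3 / 2 * N) (2 * N - 3) =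
    (1 - X) ^ 2 * (1 + X) ^ (2 * N) * Φ (Bp (3 / 2 * N) (2 * N - 3)) := by
  obtain ⟨M, hM⟩ : ∃ M, 2 * N - 3 = M + 1 := ⟨2 * N - 4, by omega⟩
  have hN2 : 2 * N = M + 4 := by omega
  have hNM : (2 * (N : ℝ⟦X⟧)) = (M : ℝ⟦X⟧) + 4 := by
    have : ((2 * N : ℕ) : ℝ⟦X⟧) = ((M + 4 : ℕ) : ℝ⟦X⟧) := by rw [hN2]
    push_cast at this
    exact this
  rw [hM, hN2]
  set c : ℝ := 3 / 2 * N with hc
  have hcc : (2 * C c : ℝ⟦X⟧) = 3 * (N : ℝ⟦X⟧) := by
    rw [hc, ← map_ofNat (C (R := ℝ)) 2, ← map_ofNat (C (R := ℝ)) 3, ← map_natCast (C (R := ℝ)) N,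
      ← map_mul, ← map_mul]
    congr 1
    ring
  have hB : Φ (Bp c (M + 1)) = (64 - 256 * (X * V) + 352 * (X * V) ^ 2 - 192 * (X * V) ^ 3 +
      33 * (X * V) ^ 4) * Φ (Polynomial.derivative (At c (M + 1))) -
      C c * ((64 * (X * V) - 112 * (X * V) ^ 2 + 44 * (X * V) ^ 3) * Φ (At c (M + 1))) := by
    rw [Bp]
    simp only [map_sub, map_add, map_mul, map_pow, map_ofNat, Φ_X, Φ_C]
  have hq : derivative ℝ (qs c (M + 1)) = - ((1 + X) ^ (M + 1) * Φ (At c (M + 1))) +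
      (1 - X) * (((M : ℝ⟦X⟧) + 1) * (1 + X) ^ M * Φ (At c (M + 1)) +
        (1 + X) ^ (M + 1) * (Φ (Polynomial.derivative (At c (M + 1))) * V ^ 2)) := by
    rw [qs, Derivation.leibniz, Derivation.leibniz, Derivation.leibniz_pow, derivative_Φ]
    simp only [map_add, map_sub, derivative_X, derivative_one, smul_eq_mul, nsmul_eq_mul,
      Nat.add_sub_cancel]
    push_cast
    ring
  rw [hq, hB, qs]
  set y := Φ (At c (M + 1)) with hy
  set y1 := Φ (Polynomial.derivative (At c (M + 1))) with hy1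
  set Z : ℝ⟦X⟧ := (1 + X) ^ M with hZ
  have hZ1 : (1 + X : ℝ⟦X⟧) ^ (M + 1) = (1 + X) * Z := by rw [pow_succ, hZ]; ring
  have hZ4 : (1 + X : ℝ⟦X⟧) ^ (M + 4) = (1 + X) ^ 4 * Z := by rw [pow_add, hZ]; ring
  have hD4 : (1 + X : ℝ⟦X⟧) ^ 4 * (64 - 256 * (X * V) + 352 * (X * V) ^ 2 - 192 * (X * V) ^ 3 +
      33 * (X * V) ^ 4) = 64 - 32 * X ^ 2 + X ^ 4 := by
    have e1 : (1 + X : ℝ⟦X⟧) ^ 4 * (64 - 256 * (X * V) + 352 * (X * V) ^ 2 - 192 * (X * V) ^ 3 +
      33 * (X * V) ^ 4) = 64 * (1 + X) ^ 4 - 256 * X * (1 + X) ^ 3 * ((1 + X) * V) +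
        352 * X ^ 2 * (1 + X) ^ 2 * ((1 + X) * V) ^ 2 -
        192 * X ^ 3 * (1 + X) * ((1 + X) * V) ^ 3 + 33 * X ^ 4 * ((1 + X) * V) ^ 4 := by ring
    rw [e1, hV]
    ring
  have hX3 : (1 + X : ℝ⟦X⟧) ^ 4 * (64 * (X * V) - 112 * (X * V) ^ 2 + 44 * (X * V) ^ 3) =
      (1 + X) * (64 * X + 16 * X ^ 2 - 4 * X ^ 3) := by
    have e1 : (1 + X : ℝ⟦X⟧) ^ 4 * (64 * (X * V) - 112 * (X * V) ^ 2 + 44 * (X * V) ^ 3) =
        (1 + X) * (64 * X * (1 + X) ^ 2 * ((1 + X) * V) - 112 * X ^ 2 * (1 + X) * ((1 + X) * V) ^ 2 +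
          44 * X ^ 3 * ((1 + X) * V) ^ 3) := by ring
    rw [e1, hV]
    ring
  have hy2 : (1 + X : ℝ⟦X⟧) * (y1 * V ^ 2) * (1 + X) = y1 := by
    have : (1 + X : ℝ⟦X⟧) * (y1 * V ^ 2) * (1 + X) = y1 * ((1 + X) * V) ^ 2 := by ring
    rw [this, hV]
    ring
  rw [hZ1, hZ4]
  linear_combination (-((1 - X) ^ 2 * Z * y1)) * hD4 + (C c * (1 - X) ^ 2 * Z * y) * hX3 +
    ((1 - X) ^ 2 * (64 - 32 * X ^ 2 + X ^ 4) * Z) * hy2 +
    ((1 - X) ^ 2 * Z * y * (1 + X) * (32 * X + 8 * X ^ 2 - 2 * X ^ 3)) * hcc -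
    ((64 - 96 * X ^ 2 + 33 * X ^ 4 - X ^ 6) * (1 - X) * Z * y) * hNM

theorem q_rec (N : ℕ) (hN : 2 ≤ N) (l : ℕ) (hl : l < 2 * N - 3) :
    64 * ((l : ℝ) + 1) * z (qs (3 / 2 * N) (2 * N - 3)) (l + 1) =
      128 * ((N : ℝ) - 2) * z (qs (3 / 2 * N) (2 * N - 3)) l +
      (96 * ((l : ℝ) - 1) + 32 * (4 - (N : ℝ))) * z (qs (3 / 2 * N) (2 * N - 3)) (l - 1) -
      (136 * (N : ℝ) - 128) * z (qs (3 / 2 * N) (2 * N - 3)) (l - 2) +
      (34 * (N : ℝ) - 64 - 33 * ((l : ℝ) - 3)) * z (qs (3 / 2 * N) (2 * N - 3)) (l - 3) +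
      (8 * (N : ℝ) - 4) * z (qs (3 / 2 * N) (2 * N - 3)) (l - 4) -
      (2 * (N : ℝ) - 2 - ((l : ℝ) - 5)) * z (qs (3 / 2 * N) (2 * N - 3)) (l - 5) := by
  have h := main_identity N hN
  set q := qs (3 / 2 * N) (2 * N - 3) with hq
  have h0 : coeff l ((1 - X) ^ 2 * (1 + X) ^ (2 * N) * Φ (Bp (3 / 2 * N) (2 * N - 3))) = 0 := by
    obtain ⟨R, hR⟩ := Bp_dvd (3 / 2 * N) (2 * N - 3)
    have h1 : (X : ℝ⟦X⟧) ^ (2 * N - 3) ∣
        (1 - X) ^ 2 * (1 + X) ^ (2 * N) * Φ (Bp (3 / 2 * N) (2 * N - 3)) := by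
      rw [hR, map_mul, map_pow, Φ_X, mul_pow]
      exact ⟨(1 - X) ^ 2 * (1 + X) ^ (2 * N) * V ^ (2 * N - 3) * Φ R, by ring⟩
    exact (X_pow_dvd_iff.1 h1) l hl
  rw [← h] at h0
  have h1 : (64 - 96 * X ^ 2 + 33 * X ^ 4 - X ^ 6 : ℝ⟦X⟧) * derivative ℝ q -
      (128 * ((N : ℝ⟦X⟧) - 2) + 32 * (4 - (N : ℝ⟦X⟧)) * X - (136 * (N : ℝ⟦X⟧) - 128) * X ^ 2 +
        (34 * (N : ℝ⟦X⟧) - 64) * X ^ 3 + (8 * (N : ℝ⟦X⟧) - 4) * X ^ 4 -
        (2 * (N : ℝ⟦X⟧) - 2) * X ^ 5) * q =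
      C 64 * (X ^ 0 * derivative ℝ q) - C 96 * (X ^ 2 * derivative ℝ q) +
        C 33 * (X ^ 4 * derivative ℝ q) - C 1 * (X ^ 6 * derivative ℝ q) -
        (C (128 * ((N : ℝ) - 2)) * (X ^ 0 * q) + C (32 * (4 - (N : ℝ))) * (X ^ 1 * q) -
          C (136 * (N : ℝ) - 128) * (X ^ 2 * q) + C (34 * (N : ℝ) - 64) * (X ^ 3 * q) +
          C (8 * (N : ℝ) - 4) * (X ^ 4 * q) - C (2 * (N : ℝ) - 2) * (X ^ 5 * q)) := by
    simp only [map_sub, map_mul, map_ofNat, map_natCast, map_one]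
    ring
  rw [h1] at h0
  obtain ⟨k0, hk0⟩ : ∃ k : ℝ, k = 128 * ((N : ℝ) - 2) := ⟨_, rfl⟩
  obtain ⟨k1, hk1⟩ : ∃ k : ℝ, k = 32 * (4 - (N : ℝ)) := ⟨_, rfl⟩
  obtain ⟨k2, hk2⟩ : ∃ k : ℝ, k = 136 * (N : ℝ) - 128 := ⟨_, rfl⟩
  obtain ⟨k3, hk3⟩ : ∃ k : ℝ, k = 34 * (N : ℝ) - 64 := ⟨_, rfl⟩
  obtain ⟨k4, hk4⟩ : ∃ k : ℝ, k = 8 * (N : ℝ) - 4 := ⟨_, rfl⟩
  obtain ⟨k5, hk5⟩ : ∃ k : ℝ, k = 2 * (N : ℝ) - 2 := ⟨_, rfl⟩
  rw [← hk0, ← hk1, ← hk2, ← hk3, ← hk4, ← hk5] at h0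
  simp only [map_sub, map_add, coeff_C_mul, coeff_Xpow, z_derivative] at h0
  push_cast at h0
  have e1 : (l : ℤ) - 0 + 1 = l + 1 := by ring
  have e2 : (l : ℤ) - 2 + 1 = l - 1 := by ring
  have e3 : (l : ℤ) - 4 + 1 = l - 3 := by ring
  have e4 : (l : ℤ) - 6 + 1 = l - 5 := by ring
  have e5 : (l : ℤ) - 0 = l := by ring
  rw [e1, e2, e3, e4, e5, hk0, hk1, hk2, hk3, hk4, hk5] at h0
  linarith

theorem coeff_one_sub (k : ℕ) : coeff k ((1 - X) * (1 + X) ^ k : ℝ⟦X⟧) = 1 - k := by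
  have h1 : ((1 + X) ^ k : ℝ⟦X⟧) = (((1 + Polynomial.X) ^ k : Polynomial ℝ) : ℝ⟦X⟧) := by
    push_cast
    rfl
  have h2 : ∀ i, coeff i ((1 + X) ^ k : ℝ⟦X⟧) = (k.choose i : ℝ) := by
    intro i
    rw [h1, Polynomial.coeff_coe, Polynomial.coeff_one_add_X_pow]
  rw [sub_mul, one_mul, map_sub, h2, Nat.choose_self]
  cases k with
  | zero => rw [coeff_zero_X_mul]; simp
  | succ k => rw [coeff_succ_X_mul, h2]; simp [Nat.choose_succ_self_right]

theorem q_last (c : ℝ) (m : ℕ) : z (qs c m) m =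
    ∑ i ∈ range (m + 1), a c i * (1 - ((m - i : ℕ) : ℝ)) := by
  rw [z_nat]
  have h1 : Φ (At c m) = ∑ i ∈ range (m + 1), C (a c i) * (X * V) ^ i := by
    rw [At, Φ, Polynomial.aeval_eq_sum_range' (n := m + 1)]
    · refine Finset.sum_congr rfl fun i hi => ?_
      have hi' : i < m + 1 := by simpa using hi
      rw [coeff_trunc, if_pos hi', coeff_mk, ← smul_eq_C_mul]
    · exact natDegree_trunc_lt _ _
  have h2 : qs c m = ∑ i ∈ range (m + 1), C (a c i) * (X ^ i * ((1 - X) * (1 + X) ^ (m - i))) := by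
    rw [qs, h1, Finset.mul_sum, Finset.mul_sum]
    refine Finset.sum_congr rfl fun i hi => ?_
    have hi' : i ≤ m := by simpa [Nat.lt_succ_iff] using hi
    have e1 : ((1 + X) ^ m : ℝ⟦X⟧) * V ^ i = (1 + X) ^ (m - i) := by
      have e2 : ((1 + X) ^ m : ℝ⟦X⟧) = (1 + X) ^ (m - i) * (1 + X) ^ i := by
        rw [← pow_add, Nat.sub_add_cancel hi']
      rw [e2, mul_assoc, ← mul_pow, hV, one_pow, mul_one]
    rw [mul_pow, ← e1]
    ring
  rw [h2, map_sum]
  refine Finset.sum_congr rfl fun i hi => ?_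
  have hi' : i ≤ m := by simpa [Nat.lt_succ_iff] using hi
  rw [coeff_C_mul, coeff_X_pow_mul', if_pos hi', coeff_one_sub]

theorem q_zero (c : ℝ) (m : ℕ) : z (qs c m) 0 = 1 := by
  have e0 : (0 : ℤ) = ((0 : ℕ) : ℤ) := rfl
  rw [e0, z_nat, qs, coeff_zero_eq_constantCoeff, map_mul, map_mul, map_pow]
  have h1 : constantCoeff (Φ (At c m)) = 1 := by
    rw [← Polynomial.divX_mul_X_add (At c m), map_add, map_mul, Φ_X, Φ_C, map_add, map_mul,
      map_mul, constantCoeff_X, zero_mul, mul_zero, zero_add, constantCoeff_C, At, coeff_trunc,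
      if_pos (by omega), coeff_mk, a_zero]
  rw [h1]
  simp

end Two

/-- The case `|c| = 2` of `main_c`: the coefficient of index `2n-1` is positive. -/
theorem main_two (n : ℕ) (hn : 2 ≤ n) (c : ℝ) (hc : |c| = 2) (P : ℤ → ℝ)
    (hneg : ∀ i < 0, P i = 0) (h0 : P 0 = 1)
    (hrec : ∀ j : ℤ, 1 ≤ j → j ≤ 2 * n - 1 → (j : ℝ) * P j =
      2 * ((n : ℝ) - 1) * c ^ 2 * P (j - 1) + 2 * c ^ 2 * (3 * j - n - 3) * P (j - 2)
        - (8 * n * c ^ 4 + 2 * (n + 1) * c ^ 2) * P (j - 3)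
        + (8 * c ^ 4 * (n + 3 - j) + c ^ 2 * (2 * n + 6 - j)) * P (j - 4)
        + 4 * c ^ 4 * (2 * n + 1) * P (j - 5) - 4 * c ^ 4 * (2 * n + 6 - j) * P (j - 6)) :
    0 < P (2 * n - 1) := by
  have hc2 : c ^ 2 = 4 := by rw [← sq_abs, hc]; norm_num
  have hc4 : c ^ 4 = 16 := by
    have : c ^ 4 = (c ^ 2) ^ 2 := by ring
    rw [this, hc2]; norm_num
  simp only [hc2, hc4] at hrec
  rcases Nat.eq_or_lt_of_le hn with h2 | h3
  · subst h2
    have r1 := hrec 1 (by norm_num) (by norm_num)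
    have r2 := hrec 2 (by norm_num) (by norm_num)
    have r3 := hrec 3 (by norm_num) (by norm_num)
    norm_num [hneg] at r1 r2 r3
    have e1 : (2 * ((2 : ℕ) : ℤ) - 1) = 3 := by norm_num
    rw [e1]
    linarith
  · obtain ⟨q, hq⟩ : ∃ q, q = Two.qs (3 / 2 * ((n + 1 : ℕ) : ℝ)) (2 * (n + 1) - 3) := ⟨_, rfl⟩
    have hm : 2 * (n + 1) - 3 = 2 * n - 1 := by omega
    have key : ∀ j : ℕ, j ≤ 2 * n - 1 → P j = 4 ^ j * Two.z q j := by
      intro j
      induction j using Nat.strong_induction_on with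
      | _ j ih =>
      intro hj
      cases j with
      | zero =>
        have e0 : ((0 : ℕ) : ℤ) = 0 := rfl
        rw [e0, h0, hq, Two.q_zero]
        norm_num
      | succ l =>
        have hr := hrec ((l + 1 : ℕ) : ℤ) (by push_cast; linarith [Int.natCast_nonneg l])
          (by omega)
        have hq2 := Two.q_rec (n + 1) (by omega) l (by omega)
        rw [← hq] at hq2
        have hv : ∀ s : ℕ, P ((l : ℤ) - s) * 4 ^ s = 4 ^ l * Two.z q ((l : ℤ) - s) := by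
          intro s
          rcases lt_or_ge l s with h4 | h4
          · rw [hneg _ (by omega), Two.z_neg q (by omega), zero_mul, mul_zero]
          · have e1 : ((l : ℤ) - s) = ((l - s : ℕ) : ℤ) := by omega
            rw [e1, ih (l - s) (by omega) (by omega)]
            have e2 : (4 : ℝ) ^ l = 4 ^ (l - s) * 4 ^ s := by
              rw [← pow_add, Nat.sub_add_cancel h4]
            rw [e2]
            ring
        have v0 := hv 0
        have v1 := hv 1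
        have v2 := hv 2
        have v3 := hv 3
        have v4 := hv 4
        have v5 := hv 5
        have e0 : (((l + 1 : ℕ) : ℤ)) = (l : ℤ) + 1 := by push_cast; ring
        have f1 : (((l + 1 : ℕ) : ℤ) - 1) = (l : ℤ) := by push_cast; ring
        have f2 : (((l + 1 : ℕ) : ℤ) - 2) = (l : ℤ) - 1 := by push_cast; ring
        have f3 : (((l + 1 : ℕ) : ℤ) - 3) = (l : ℤ) - 2 := by push_cast; ring
        have f4 : (((l + 1 : ℕ) : ℤ) - 4) = (l : ℤ) - 3 := by push_cast; ring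
        have f5 : (((l + 1 : ℕ) : ℤ) - 5) = (l : ℤ) - 4 := by push_cast; ring
        have f6 : (((l + 1 : ℕ) : ℤ) - 6) = (l : ℤ) - 5 := by push_cast; ring
        rw [f1, f2, f3, f4, f5, f6] at hr
        push_cast at hr hq2 v0 v1 v2 v3 v4 v5 ⊢
        rw [sub_zero] at v0
        norm_num at v0 v1 v2 v3 v4 v5
        have hl : ((l : ℝ) + 1) ≠ 0 := by positivity
        apply mul_left_cancel₀ hl
        rw [pow_succ]
        linear_combination hr + (8 * ((n : ℝ) - 1)) * v0 + (2 * (3 * ((l : ℝ) + 1) - n - 3)) * v1 -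
          ((136 * (n : ℝ) + 8) / 16) * v2 +
          ((128 * ((n : ℝ) + 3 - ((l : ℝ) + 1)) + 4 * (2 * n + 6 - (l + 1))) / 64) * v3 +
          (64 * (2 * (n : ℝ) + 1) / 256) * v4 - (64 * (2 * (n : ℝ) + 6 - (l + 1)) / 1024) * v5 -
          (4 ^ l / 16) * hq2
    have h5 := key (2 * n - 1) le_rfl
    have e : ((2 * n - 1 : ℕ) : ℤ) = 2 * n - 1 := by omega
    rw [← e, h5]
    refine mul_pos (by positivity) ?_
    rw [hq, hm, Two.q_last, ← hm]
    exact Two.final_pos (n + 1) (by omega)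

/-- `main_c` and `main_two` for an integer `c`. -/
theorem main_int (n : ℕ) (hn : 2 ≤ n) (c : ℤ) (hc : 2 ≤ |c|) (P : ℤ → ℝ)
    (hneg : ∀ i < 0, P i = 0) (h0 : P 0 = 1)
    (hrec : ∀ j : ℤ, 1 ≤ j → j ≤ 2 * n - 1 → (j : ℝ) * P j =
      2 * ((n : ℝ) - 1) * (c : ℝ) ^ 2 * P (j - 1) + 2 * (c : ℝ) ^ 2 * (3 * j - n - 3) * P (j - 2)
        - (8 * n * (c : ℝ) ^ 4 + 2 * (n + 1) * (c : ℝ) ^ 2) * P (j - 3)
        + (8 * (c : ℝ) ^ 4 * (n + 3 - j) + (c : ℝ) ^ 2 * (2 * n + 6 - j)) * P (j - 4)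
        + 4 * (c : ℝ) ^ 4 * (2 * n + 1) * P (j - 5)
        - 4 * (c : ℝ) ^ 4 * (2 * n + 6 - j) * P (j - 6)) :
    0 < P (2 * n - 1) := by
  rcases eq_or_lt_of_le hc with h | h
  · refine main_two n hn c ?_ P hneg h0 hrec
    rw [← Int.cast_abs, ← h]
    norm_num
  · refine (main_c n hn c ?_ P hneg h0 hrec).2.1
    rw [← Int.cast_abs]
    exact_mod_cast h

end Vale.Agent.P231.H29
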